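import Mathlib
import Vale.Agent.N036W.Defs
import Vale.Agent.N036W.Final

/-!
# Heilbronn's triangle problem: every exponent `c < 1889/97648`
-/

namespace Vale.Agent.Results.P036.A0SplitPrime

open Vale.Agent.N036W

theorem result :
    -- (1) the lower bound
    (∀ Δ : ℕ → ℝ, IsHeilbronn Δ → ∀ c : ℝ, c < 1889 / 97648 → ∃ n₀ : ℕ, ∀ n : ℕ, n₀ ≤ n →
      (n:ℝ) ^ (-2 + c) ≤ Δ n) ∧
    -- (2) the maxima exist
    (∃ Δ : ℕ → ℝ, IsHeilbronn Δ) :=
  ⟨square', _, isHeilbronn_heilDelta⟩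

end Vale.Agent.Results.P036.A0SplitPrime
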